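import Vale.Agent.P352AB.W2

namespace Vale.Agent.Results.P352.AScaleConformal

open Vale.Agent.P352.GF Vale.Agent.P352AB
open UniformSpace (Completion)

universe u

/-- **Scale invariant theories with a local net are conformally invariant.**

Let `T` be a symmetric conserved stress tensor of the theory `Q` (`Stress0`); its charges on
space-like hyperplanes are the generators `A X` of the Poincaré transformations (`PCh`). The theory
is scale invariant: the dilates of the fields are linear combinations of fields (`Cov`), the trace
of `T` is the divergence of a local vector field `J`, and the charge of the current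
`x^n T_{mn} - J_m` is the generator of the dilations (`Virial0`). The dilates of `T` and of `J` have
asymptotic expansions at large distances, up to the dimensions four and three, with finitely many
terms and with logarithms (`Asy`). The vacuum is unique (`UVac`), and the smeared fields are
affiliated to the von Neumann algebras `N O` of a local net (`LNm`). The defining fields (the fields
of `Q₀`) are finite sums of components of Lorentz multiplets (`MfAll`) and have finite scaling laws,
in which logarithms are allowed (`Fs`); the vacuum is cyclic for the tensor fields among them
(`TfGen`). Nothing is assumed about conformal transformations, logarithms, time ordered products,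
energy bounds or the reconstruction of fields.

Then `Q` has a stress tensor `S` of dimension four with the charges of `T`, and a theory `Q₁` that
contains the defining fields and `S` extends, in the same Hilbert space, to a theory `Q'` (`Ext`)
with a hermitian scalar field `L` of dimension two such that the trace of `S` is `3 □ L`. The tensor
`t = S + (∂∂ - η □) L` is a traceless improvement of `S` whose charges generate the conformal
symmetry, for `Q'` and for all theories obtained from `Q'` by adding local fields (`ConfL`). The
gradient of `L` is weakly local relative to all fields of `Q` (`Mult`). -/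
theorem result {D : Type u} [NormedAddCommGroup D] [InnerProductSpace ℂ D] (Q : Theory D)
    (T : Ix → Ix → Fld D) (hT : Stress0 Q T) (A : (V → V) → D → D) (hA : PCh Q T A)
    (J : Ix → Fld D) (hV : Virial0 Q T J A) (hC : ∀ s, 0 < s → Cov Q s one 0)
    (aT : ∀ m n, Asy Q 4 (T m n)) (aJ : ∀ m, Asy Q 3 (J m))
    (N : Set V → VonNeumannAlgebra (Completion D)) (hN : LNm Q A N) (hU : UVac Q)
    (Q₀ : Theory D) (h0 : IsEnl Q₀ Q) (hG : TfGen Q₀) (hM : MfAll Q₀)
    (hF : ∀ B, Q₀.fld B → Fs Q₀ B) :
    ∃ S Q₁, Q.IsStress S ∧ PCh Q S A ∧ IsEnl Q₀ Q₁ ∧ IsEnl Q₁ Q ∧ Q₁.IsStress S ∧
      ∃ (E : Submodule ℂ (Completion D)) (Q' : Theory E) (e : Fld D → Fld E) (L : Fld E),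
        Ext Q₁ N Q' e ∧ ConfL Q' (fun m n => e (S m n)) L ∧
        Mult Q fun m f => (eta m : ℂ) • (L (pd m f) Q'.vac : Completion D) :=
  finalC Q T hT A hA J hV hC aT aJ N hN hU Q₀ h0 hG hM hF

end Vale.Agent.Results.P352.AScaleConformal
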