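import Vale.Agent.P352EC.W

namespace Vale.Agent.Results.P352.AScaleFermi

open Vale.Agent.P352.GF Vale.Agent.P352AB Vale.Agent.P352EF Vale.Agent.P352EC
open UniformSpace (Completion)

/-- **Scale invariant theories with bosons and fermions, a local net and polynomial energy bounds
are conformally invariant.**

Let `T` be a symmetric conserved stress tensor of the theory `Q` (`Stress0`); its charges on
space-like hyperplanes are the generators `A X` of the Poincaré transformations (`PCh`). The theory
is scale invariant: the dilates of the fields are linear combinations of fields (`Cov`), the trace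
of `T` is the divergence of a local vector field `J`, and the charge of the current
`x^n T_{mn} - J_m` is the generator of the dilations (`Virial0`). The dilates of `T` and of `J` have
asymptotic expansions at large distances, up to the dimensions four and three, with finitely many
terms and with logarithms (`Asy`). The theory is graded by `G = (-1)^F`; the smeared fields are
affiliated to the von Neumann algebras `N O` of a graded local net (`LNg`) and satisfy polynomial
energy bounds (`EBd`); the vacuum is unique (`UVac`). The defining fields (the fields of the graded
theory `Q₀`, for which the vacuum is cyclic) are finite sums of components of multiplets with spin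
(`MfAll`) and have finite scaling laws, in which logarithms are allowed (`Fs`). Nothing is assumed
about conformal transformations, logarithms, time ordered products, the reconstruction of fields, a
bosonic sector, or spin and statistics.

Then `Q` has a stress tensor `S` of dimension four with the charges of `T`, and a theory `Q₁` that
contains the defining fields and `S` extends, in the same Hilbert space, to a graded theory `Q'`
(`ExtF`) with a hermitian scalar Bose field `L` of dimension two such that the trace of `S` is
`3 □ L`. The tensor `t = S + (∂∂ - η □) L` is a traceless improvement of `S` whose charges generate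
the conformal symmetry, for `Q'` and for all graded theories obtained from `Q'` by adding local
fields (`ConfG`). If all fields of `Q` are sums of components of multiplets, `L` is weakly local
relative to all of them (`WLoc`). -/
theorem result {D : Type*} [NormedAddCommGroup D] [InnerProductSpace ℂ D] (Q : Theory D)
    (G : D → D) (T : Ix → Ix → Fld D) (hT : Stress0 Q T) (A : (V → V) → D → D) (hA : PCh Q T A)
    (J : Ix → Fld D) (hV : Virial0 Q T J A) (hC : ∀ s, 0 < s → Cov Q s one 0)
    (aT : ∀ m n, Asy Q 4 (T m n)) (aJ : ∀ m, Asy Q 3 (J m))
    (Γ : Completion D →L[ℂ] Completion D) (N : Set V → VonNeumannAlgebra (Completion D))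
    (hN : LNg Q G A Γ N) (hU : UVac Q) (hE : EBd Q) (Q₀ : Theory D) (h0 : IsEnl Q₀ Q)
    (hG : Gr Q₀ G) (hM : MfAll Q₀) (hF : ∀ B, Q₀.fld B → Fs Q₀ B) :
    ∃ S Q₁, Q.IsStress S ∧ PCh Q S A ∧ IsEnl Q₀ Q₁ ∧ Q₁.IsStress S ∧
      (∀ B, Q₁.fld B → Q.fld B ∨ B = fun _ _ => 0) ∧
      ∃ (E : Submodule ℂ (Completion D)) (Q' : Theory E) (G' : E → E) (e : Fld D → Fld E)
        (L : Fld E), ExtF Q₁ N Q' e ∧ (∀ v, (G' v : Completion D) = Γ v) ∧
        ConfG Q' G' (fun m n => e (S m n)) L ∧
        (MfAll Q → WLoc Q fun f => (L f Q'.vac : Completion D)) :=
  P352EC.final Q G T hT A hA J hV hC aT aJ Γ N hN hU hE Q₀ h0 hG hM hF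

end Vale.Agent.Results.P352.AScaleFermi
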